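import Vale.Agent.P167.N.Top.Dt

/-- **The interfaces of the critical random-cluster model for `0 < q < 1`**: every subsequence of the
interfaces of any lattice approximation of any marked Jordan domain has a further subsequence which
converges in law, in the metric `d`, to the conformal image of the trace of a Loewner chain with a
random continuous driver. -/
theorem Vale.Agent.Results.P167.ASmallQLoewner.result :
    ∀ q : ℝ, 0 < q → q < 1 → Vale.Agent.P167.H259.C.DTOut q :=
  fun _ h0 h1 => Vale.Agent.P167.N.H199.DT.dt_lt h0 h1
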