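import Vale.Agent.P167.H72.Lit.Defs
import Vale.Agent.P167.H72.Lit.Exi
import Vale.Agent.P167.N.Top.Lit

universe u

/-- **The question of Rohde and Schramm for all `0 < q < 4`**: the interfaces of the critical
random-cluster model on the square lattice with Dobrushin boundary conditions converge in law, in the
metric `d`, to chordal `SLE_κ(q)`, in every bounded Jordan domain and for all lattice
approximations; such approximations exist. -/
theorem Vale.Agent.Results.P167.AllQInterface.result :
    (∀ q : ℝ, 0 < q → q < 4 → Vale.Agent.P167.H72.Lit.Question.{u} q) ∧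
      ∀ Φ : ℂ ≃ₜ ℂ, Vale.Agent.P167.H72.Lit.HasApproximations Φ :=
  ⟨Vale.Agent.P167.N.Top.question_lit, Vale.Agent.P167.H72.Lit.exists_approx⟩
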